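import Vale.Agent.P171.MathlibUsed

open MeasureTheory Filter Topology
open scoped ENNReal

namespace Vale.Agent.P171

/-- Euclidean three-space. -/
abbrev E3 : Type := EuclideanSpace ℝ (Fin 3)

/-- Total energy of the configuration `x` of `N` particles for the radial pair potential `φ`:
the sum of `φ (|x i - x j|)` over the pairs `i < j`. -/
noncomputable def energy (φ : ℝ → ℝ) {N : ℕ} (x : Fin N → E3) : ℝ :=
  ∑ i : Fin N, ∑ j ∈ Finset.Ioi i, φ ‖x i - x j‖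

/-- `φ` is Borel measurable and locally bounded on the open half line `(0, ∞)`. -/
def IsPotential (φ : ℝ → ℝ) : Prop :=
  Measurable (fun r : Set.Ioi (0 : ℝ) => φ r) ∧
    ∀ a b : ℝ, 0 < a → ∃ M : ℝ, ∀ r : ℝ, a ≤ r → r ≤ b → |φ r| ≤ M

/-- Stability: the energy of every configuration of `N` distinct points is at least `-B N`. -/
def Stable (φ : ℝ → ℝ) : Prop :=
  ∃ B : ℝ, ∀ (N : ℕ) (x : Fin N → E3), Function.Injective x → -(B * N) ≤ energy φ x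

/-- Temperedness: `φ r ≤ C r^(-3-ε)` for all `r ≥ R₀`. -/
def Tempered (φ : ℝ → ℝ) : Prop :=
  ∃ C ε R₀ : ℝ, 0 < C ∧ 0 < ε ∧ 0 < R₀ ∧ ∀ r : ℝ, R₀ ≤ r → φ r ≤ C * r ^ (-(3 + ε))

/-- The cube `[0, L]^3`. -/
def box (L : ℝ) : Set E3 := {x | ∀ i : Fin 3, 0 ≤ x i ∧ x i ≤ L}

/-- The canonical partition function `Z_{L,N}(β)`; for `N = 0` it equals `1`. -/
noncomputable def Z (φ : ℝ → ℝ) (β L : ℝ) (N : ℕ) : ℝ≥0∞ :=
  (N.factorial : ℝ≥0∞)⁻¹ *
    ∫⁻ x in {x : Fin N → E3 | ∀ i, x i ∈ box L}, ENNReal.ofReal (Real.exp (-β * energy φ x))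

/-- The grand canonical partition function `∑_N z^N Z_{L,N}(β)`. -/
noncomputable def Xi (φ : ℝ → ℝ) (β z L : ℝ) : ℝ≥0∞ :=
  ∑' N : ℕ, ENNReal.ofReal (z ^ N) * Z φ β L N

/-- `p` is the thermodynamic limit `lim_{L → ∞} L^{-3} log Ξ_L(β, z)`, all the
`Ξ_L(β, z)` being finite. -/
def HasPressure (φ : ℝ → ℝ) (β z p : ℝ) : Prop :=
  (∀ L : ℝ, 0 < L → Xi φ β z L ≠ ⊤) ∧
    Tendsto (fun L : ℝ => Real.log (Xi φ β z L).toReal / L ^ 3) atTop (𝓝 p)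

/-- Phase transition in the sense (a): for some `β > 0` the function `z ↦ Π(β, z)` on `(0, ∞)`
exists and is not differentiable at some point. -/
def HasPhaseTransition (φ : ℝ → ℝ) : Prop :=
  ∃ β : ℝ, 0 < β ∧ ∃ Pi : ℝ → ℝ, (∀ z : ℝ, 0 < z → HasPressure φ β z (Pi z)) ∧
    ∃ z : ℝ, 0 < z ∧ ¬ DifferentiableAt ℝ Pi z

end Vale.Agent.P171
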