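import Mathlib.Algebra.Order.Chebyshev
import Mathlib.Algebra.Order.Ring.Star
import Mathlib.Algebra.Order.Star.Real
import Mathlib.Analysis.Convex.Continuous
import Mathlib.Analysis.Normed.Lp.lpSpace
import Mathlib.Analysis.Real.Pi.Bounds
import Mathlib.Computability.Reduce
import Mathlib.Data.Int.Star
import Mathlib.MeasureTheory.Function.Floor
import Mathlib.MeasureTheory.Measure.Lebesgue.VolumeOfBalls
import Mathlib.Order.CompletePartialOrder
import Mathlib.RingTheory.Etale.Weakly
import Mathlib.RingTheory.Flat.TorsionFree
import Mathlib.RingTheory.TotallySplit
import Mathlib.Tactic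

/-! The part of Mathlib that the development of this folder uses. -/
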